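import Vale.Agent.P254.Asymptotics

/-!
The strong isotropic constant conjecture is equivalent to its asymptotic form.
-/

open MeasureTheory Set Filter Topology
open Vale.Agent.P254

namespace Vale.Agent.Results.P254.AsymptoticEquiv

lemma exists_centred {ι : Type*} [Fintype ι] [DecidableEq ι] {K : Set (ι → ℝ)}
    (hc : Convex ℝ K) (hk : IsCompact K) (hi : (interior K).Nonempty) :
    ∃ K' : Set (ι → ℝ), IsBody K' ∧ isoConst K' = isoConst K := by
  obtain ⟨x, hx⟩ := hi
  set K' := (fun y => -x + LinearEquiv.refl ℝ _ y) '' K with hK'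
  have hB : IsBody K' := by
    have e : K' = (fun y => -x + y) '' K := rfl
    refine ⟨e ▸ hc.translate (-x), e ▸ hk.image (continuous_const.add continuous_id), ?_,
      ⟨x, interior_subset hx, by simp⟩⟩
    refine ⟨0, mem_interior.2 ⟨(fun y => x + y) ⁻¹' interior K, fun y hy =>
      ⟨x + y, interior_subset hy, by simp⟩, isOpen_interior.preimage (by fun_prop), by simpa using hx⟩⟩
  refine ⟨K', hB, ?_⟩
  have h0 : K = (fun y => x + LinearEquiv.refl ℝ _ y) '' K' := by
    rw [hK', image_image]; simp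
  conv_rhs => rw [h0]
  exact (isoConst_affine_image hB _ x).symm

lemma amplify {C : ℝ} {n₀ : ℕ} (hC : 0 < C)
    (H : ∀ N, n₀ ≤ N → ∀ Q : Set (Fin N → ℝ), Convex ℝ Q → IsCompact Q →
      (interior Q).Nonempty → isoConst Q ≤ C)
    {n : ℕ} (hn : 0 < n) {K : Set (Fin n → ℝ)} (hc : Convex ℝ K) (hk : IsCompact K)
    (hi : (interior K).Nonempty) :
    isoConst K ≤ (Real.exp 1 * C) ^ (((n : ℝ) + 1) / n) * simplexConst n := by
  obtain ⟨K', hB, e⟩ := exists_centred hc hk hi
  have h := ratio_le_of_asymptotic hC H hB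
  rw [Fintype.card_fin] at h
  rw [← e, isoConst_eq hB, simplexConst_eq, Fintype.card_fin,
    Real.mul_rpow hB.ratio_pos.le (simplexDisp_pos n).le]
  gcongr
  · exact Real.rpow_nonneg (simplexDisp_pos n).le _
  have hb : 0 < Real.exp 1 * C := mul_pos (Real.exp_pos 1) hC
  calc ratio K' ^ ((1 : ℝ) / (2 * n))
      ≤ ((Real.exp 1 * C) ^ (2 * (n + 1))) ^ ((1 : ℝ) / (2 * n)) :=
        Real.rpow_le_rpow hB.ratio_pos.le h (by positivity)
    _ = _ := by
      rw [← Real.rpow_natCast, ← Real.rpow_mul hb.le]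
      congr 1
      push_cast
      field_simp

theorem result :
    ((∀ n : ℕ, 0 < n → ∀ K : Set (Fin n → ℝ), Convex ℝ K → IsCompact K →
        (interior K).Nonempty → isoConst K ≤ simplexConst n) ↔
      (∀ ε : ℝ, 0 < ε → ∃ n₀ : ℕ, ∀ n : ℕ, n₀ ≤ n → ∀ K : Set (Fin n → ℝ), Convex ℝ K →
        IsCompact K → (interior K).Nonempty → isoConst K ≤ 1 / Real.exp 1 + ε)) ∧
    (∀ C : ℝ, 0 < C → ∀ n₀ : ℕ,
      (∀ N : ℕ, n₀ ≤ N → ∀ Q : Set (Fin N → ℝ), Convex ℝ Q → IsCompact Q →
        (interior Q).Nonempty → isoConst Q ≤ C) →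
      ∀ n : ℕ, 0 < n → ∀ K : Set (Fin n → ℝ), Convex ℝ K → IsCompact K →
        (interior K).Nonempty →
          isoConst K ≤ (Real.exp 1 * C) ^ (((n : ℝ) + 1) / n) * simplexConst n) := by
  refine ⟨⟨fun h ε hε => ?_, fun h n hn K hc hk hi => ?_⟩,
    fun C hC n₀ H n hn K hc hk hi => amplify hC H hn hc hk hi⟩
  · obtain ⟨n₀, h₀⟩ := Filter.eventually_atTop.1 (eventually_simplexConst_le hε)
    exact ⟨max n₀ 1, fun n hn K hc hk hi =>
      (h n (le_of_max_le_right hn) K hc hk hi).trans (h₀ n (le_of_max_le_left hn))⟩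
  · have hlim : Tendsto (fun ε : ℝ => (Real.exp 1 * (1 / Real.exp 1 + ε)) ^ (((n : ℝ) + 1) / n) *
        simplexConst n) (𝓝[>] 0) (𝓝 (simplexConst n)) := by
      have h1 : Tendsto (fun ε : ℝ => Real.exp 1 * (1 / Real.exp 1 + ε)) (𝓝[>] 0) (𝓝 1) := by
        have : Continuous fun ε : ℝ => Real.exp 1 * (1 / Real.exp 1 + ε) := by fun_prop
        have := (this.tendsto 0).mono_left (nhdsWithin_le_nhds (s := Ioi 0))
        simpa using this
      have h2 := (h1.rpow_const (p := ((n : ℝ) + 1) / n) (Or.inl one_ne_zero)).mul_const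
        (simplexConst n)
      simpa using h2
    refine ge_of_tendsto hlim (eventually_nhdsWithin_of_forall fun ε hε => ?_)
    have hε' : 0 < ε := hε
    obtain ⟨n₀, h₀⟩ := h ε hε'
    exact amplify (by positivity) h₀ hn hc hk hi

end Vale.Agent.Results.P254.AsymptoticEquiv
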