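import Vale.Agent.P254.Points

/-!
The strong isotropic constant conjecture is stable under free sums, and holds for all convex
bodies spanned by at most `n + 2` points.
-/

open MeasureTheory Set
open Vale.Agent.P254

namespace Vale.Agent.Results.P254.FreeSums

theorem result :
    (∀ (ι κ : Type) [Fintype ι] [Fintype κ] [DecidableEq ι] [DecidableEq κ],
      0 < Fintype.card ι → 0 < Fintype.card κ →
      ∀ (K₁ : Set (ι → ℝ)) (K₂ : Set (κ → ℝ)),
        Convex ℝ K₁ → IsCompact K₁ → (interior K₁).Nonempty → (0 : ι → ℝ) ∈ K₁ →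
        Convex ℝ K₂ → IsCompact K₂ → (interior K₂).Nonempty → (0 : κ → ℝ) ∈ K₂ →
        isoConst K₁ ≤ simplexConst (Fintype.card ι) →
        isoConst K₂ ≤ simplexConst (Fintype.card κ) →
        isoConst (freeSum K₁ K₂) ≤ simplexConst (Fintype.card ι + Fintype.card κ) ∧
          ((0 : ι → ℝ) ∉ extremePoints ℝ K₁ → (0 : κ → ℝ) ∉ extremePoints ℝ K₂ →
            isoConst (freeSum K₁ K₂) < simplexConst (Fintype.card ι + Fintype.card κ))) ∧
    (∀ (n : ℕ), 0 < n → ∀ p : Fin (n + 2) → (Fin n → ℝ),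
      (interior (convexHull ℝ (range p))).Nonempty →
        isoConst (convexHull ℝ (range p)) ≤ simplexConst n ∧
          (isoConst (convexHull ℝ (range p)) = simplexConst n ↔
            IsFullSimplex (convexHull ℝ (range p)))) := by
  refine ⟨?_, fun n hn p hp => few_vertices hn p hp⟩
  intro ι κ _ _ _ _ hι hκ K₁ K₂ c₁ k₁ i₁ z₁ c₂ k₂ i₂ z₂ l₁ l₂
  have B₁ : IsBody K₁ := ⟨c₁, k₁, i₁, z₁⟩
  have B₂ : IsBody K₂ := ⟨c₂, k₂, i₂, z₂⟩
  have h := ratio_freeSum_le B₁ B₂ ((isoConst_le_iff B₁ hι).1 l₁) ((isoConst_le_iff B₂ hκ).1 l₂)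
  have hs : 0 < Fintype.card (ι ⊕ κ) := by rw [Fintype.card_sum]; omega
  rw [← Fintype.card_sum]
  exact ⟨(isoConst_le_iff (B₁.free_sum B₂) hs).2 h.1,
    fun e₁ e₂ => (isoConst_lt_iff (B₁.free_sum B₂) hs).2 (h.2 e₁ e₂)⟩

end Vale.Agent.Results.P254.FreeSums
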