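import Vale.Agent.P254M.Final
import Vale.Agent.P254M.Limit
import Vale.Agent.P254M.Pointwise
import Vale.Agent.P254M.Gap.Max
import Vale.Agent.P254M.Exist

/-!
An explicit slicing bound in every dimension, and the comparison with the simplex it gives.
-/

open MeasureTheory Set
open Vale.Agent.P254

namespace Vale.Agent.Results.P254.SharpSlicing

lemma exp_gap :
    Real.exp (1 / 5 + 2 / 5 * Real.log 3) = Real.exp (1 / 5) * (3 : ℝ) ^ ((2 : ℝ) / 5) := by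
  rw [Real.exp_add, Real.rpow_def_of_pos (by norm_num : (0:ℝ) < 3), mul_comm (Real.log 3)]

lemma exp_gap_one :
    Real.exp (1 / 5 + 2 / 5 * Real.log 3 + 1) = Real.exp (6 / 5) * (3 : ℝ) ^ ((2 : ℝ) / 5) := by
  rw [show (1 / 5 + 2 / 5 * Real.log 3 + 1 : ℝ) = 6 / 5 + 2 / 5 * Real.log 3 by ring, Real.exp_add,
    Real.rpow_def_of_pos (by norm_num : (0:ℝ) < 3), mul_comm (Real.log 3)]

lemma const_le :
    Real.exp (1 / 5) * (3 : ℝ) ^ ((2 : ℝ) / 5) / Real.sqrt (2 * Real.pi * Real.exp 1) ≤ 0.459 := by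
  have hd : (0 : ℝ) < 2 * Real.pi * Real.exp 1 := by positivity
  refine le_of_pow_le_pow_left₀ (n := 10) (by norm_num) (by norm_num) ?_
  rw [div_pow, mul_pow, ← Real.exp_nat_mul, ← Real.rpow_natCast ((3 : ℝ) ^ ((2 : ℝ) / 5)) 10,
    ← Real.rpow_mul (by norm_num), show (10 : ℕ) = 2 * 5 by norm_num, pow_mul, Real.sq_sqrt hd.le]
  norm_num
  rw [div_le_iff₀ (by positivity)]
  have he : (2.7182818283 : ℝ) ≤ Real.exp 1 := Real.exp_one_gt_d9.le
  have hp : (3.141592 : ℝ) ≤ Real.pi := Real.pi_gt_d6.le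
  have e2 : Real.exp 2 = Real.exp 1 ^ 2 := by rw [← Real.exp_nat_mul]; norm_num
  rw [e2, mul_pow, mul_pow]
  have h : (81 : ℝ) ≤ (0.459 : ℝ) ^ 10 * (2 ^ 5 * Real.pi ^ 5) * Real.exp 1 ^ 3 := by
    calc (81 : ℝ) ≤ (0.459 : ℝ) ^ 10 * (2 ^ 5 * (3.141592 : ℝ) ^ 5) * (2.7182818283 : ℝ) ^ 3 := by
          norm_num
      _ ≤ _ := by gcongr
  nlinarith [mul_le_mul_of_nonneg_left h (sq_nonneg (Real.exp 1))]

theorem result :
    (∀ n : ℕ, 0 < n → ∀ K : Set (Fin n → ℝ), Convex ℝ K → IsCompact K → (interior K).Nonempty →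
      isoConst K ≤ Real.exp (1 / 5) * (3 : ℝ) ^ ((2 : ℝ) / 5) / Real.sqrt (2 * Real.pi * Real.exp 1) ∧
        isoConst K ≤
          (Real.exp (6 / 5) * (3 : ℝ) ^ ((2 : ℝ) / 5) / Real.sqrt (2 * Real.pi * Real.exp 1))
            ^ (((n : ℝ) + 1) / n) * simplexConst n) ∧
    Real.exp (1 / 5) * (3 : ℝ) ^ ((2 : ℝ) / 5) / Real.sqrt (2 * Real.pi * Real.exp 1) ≤ 0.459 ∧
    Real.exp (6 / 5) * (3 : ℝ) ^ ((2 : ℝ) / 5) / Real.sqrt (2 * Real.pi * Real.exp 1) ≤ 1.248 := by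
  refine ⟨?_, const_le, ?_⟩
  · rw [← exp_gap, ← exp_gap_one]
    exact Vale.Agent.P254M.bounds_of_gap fun _ U _ _ hb => Vale.Agent.P254M.Gap.gdef_le_of_skew
      (Vale.Agent.P254M.skewMoment_of Vale.Agent.P254M.existence Vale.Agent.P254M.pointwise) U hb
  · rw [show (6 / 5 : ℝ) = 1 + 1 / 5 by norm_num, Real.exp_add, mul_assoc, mul_div_assoc]
    have he := Real.exp_one_lt_d9.le
    refine (mul_le_mul he const_le (by positivity) (by norm_num)).trans ?_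
    norm_num

end Vale.Agent.Results.P254.SharpSlicing
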